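import Vale.Agent.P160.Final

namespace Vale.Agent.Results.P160.FiveSixths

theorem result : ∃ N : ℕ, ∀ n ≥ N, Vale.Agent.P160.singProb n ≤ (5 / 6 : ℝ) ^ n :=
  Filter.eventually_atTop.1 Vale.Agent.P160.final

end Vale.Agent.Results.P160.FiveSixths
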