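import Vale.Agent.P160F.Final

namespace Vale.Agent.Results.P160.Half

theorem result : Filter.Tendsto (fun n : ℕ => Vale.Agent.P160.singProb n ^ ((1 : ℝ) / n))
    Filter.atTop (nhds (1 / 2)) :=
  Vale.Agent.P160F.final

end Vale.Agent.Results.P160.Half
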